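import Vale.Agent.P221.H395.Comp2

/-!
# The homotopy limit of the `X / p ^ j` is the `p`-completion
-/

open CategoryTheory Limits Pretriangulated

set_option linter.unusedSectionVars false

universe v u

namespace Vale.Agent.P251HL

open Vale.Agent.P221.H395

variable {T : Type u} [Category.{v} T] [Preadditive T] [HasZeroObject T]
  [HasShift T ℤ] [∀ n : ℤ, (shiftFunctor T n).Additive] [Pretriangulated T] {p : ℕ}

theorem smul_eq_zero {W X : T} {m : ℤ} (hW : m • 𝟙 W = 0) (f : W ⟶ X) : m • f = 0 := by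
  rw [← Category.id_comp f, ← Preadditive.zsmul_comp, hW, zero_comp]

theorem shift_tors {W : T} {m : ℤ} (hW : m • 𝟙 W = 0) (n : ℤ) : m • 𝟙 (W⟦n⟧) = 0 := by
  rw [← CategoryTheory.Functor.map_id, ← Functor.map_zsmul, hW, Functor.map_zero]

/-- the cofibre of `m` is killed by `m ^ 2` -/
theorem cof_tors {X C : T} {m : ℤ} {i : X ⟶ C} {d : C ⟶ X⟦(1 : ℤ)⟧}
    (h : Triangle.mk (m • 𝟙 X) i d ∈ distTriang T) : (m * m) • 𝟙 C = 0 := by
  have h1 : i ≫ (m • 𝟙 C) = 0 := by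
    have h2 : (m • 𝟙 X) ≫ i = 0 := comp_distTriang_mor_zero₁₂ _ h
    rw [Preadditive.comp_zsmul, Category.comp_id]
    rwa [Preadditive.zsmul_comp, Category.id_comp] at h2
  obtain ⟨z, hz⟩ : ∃ z : X⟦(1 : ℤ)⟧ ⟶ C, m • 𝟙 C = d ≫ z := Triangle.yoneda_exact₃ _ h _ h1
  have h3 : d ≫ (m • 𝟙 X)⟦(1 : ℤ)⟧' = 0 := comp_distTriang_mor_zero₃₁ _ h
  rw [Functor.map_zsmul, CategoryTheory.Functor.map_id, Preadditive.comp_zsmul,
    Category.comp_id] at h3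
  rw [mul_smul, hz, ← Preadditive.zsmul_comp, h3, zero_comp]

/-- if no object killed by `p ^ 2` maps to `Z`, then `p` is invertible on `Z` -/
theorem isIso_of_tors {Z : T} {m : ℤ} (h : ∀ W : T, (m * m) • 𝟙 W = 0 → ∀ g : W ⟶ Z, g = 0) :
    IsIso (m • 𝟙 Z) := by
  obtain ⟨C, i, d, hC⟩ := distinguished_cocone_triangle (m • 𝟙 Z)
  have h1 := cof_tors hC
  have hd : d = 0 := by
    let e : (C⟦(-1 : ℤ)⟧)⟦(1 : ℤ)⟧ ≅ C := (shiftFunctorCompIsoId T (-1 : ℤ) 1 (by simp)).app C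
    obtain ⟨g, hg⟩ := (shiftFunctor T (1 : ℤ)).map_surjective (e.hom ≫ d)
    rw [← cancel_epi e.hom, ← hg, h _ (shift_tors h1 _) g, Functor.map_zero, comp_zero]
  obtain ⟨s, hs⟩ : ∃ s : C ⟶ Z, 𝟙 C = s ≫ i :=
    Triangle.coyoneda_exact₃ _ hC (𝟙 C) (by
      change 𝟙 C ≫ d = 0
      rw [hd, comp_zero])
  refine (Triangle.isZero₃_iff_isIso₁ _ hC).1 ?_
  change IsZero C
  rw [IsZero.iff_id_eq_zero, hs, h C h1 s, zero_comp]

theorem pComplete_of_pow {X : T} {k : ℕ} (h : ((p : ℤ) ^ k) • 𝟙 X = 0) : PComplete p X := by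
  intro W hW f
  have h1 : ∀ j : ℕ, ∃ g : W ⟶ X, f = ((p : ℤ) ^ j) • g := by
    intro j
    induction j with
    | zero => exact ⟨f, by rw [pow_zero, one_smul]⟩
    | succ j ih =>
      obtain ⟨g, hg⟩ := ih
      obtain ⟨g', hg'⟩ := exists_div hW g
      exact ⟨g', by rw [hg, hg', smul_smul, pow_succ]⟩
  obtain ⟨g, hg⟩ := h1 k
  rw [hg, ← Category.comp_id g, ← Preadditive.comp_zsmul, h, comp_zero]

/-- the data of a homotopy limit of the `X / p ^ j` -/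
structure Tw (p : ℕ) {X Y : T} (c : X ⟶ Y) where
  M : ℕ → T
  i : ∀ j, X ⟶ M j
  d : ∀ j, M j ⟶ X⟦(1 : ℤ)⟧
  t : ∀ j, M (j + 1) ⟶ M j
  P : T
  q : ∀ j, P ⟶ M j
  s : P ⟶ P
  u : Y ⟶ P
  h : P ⟶ Y⟦(1 : ℤ)⟧
  dist : ∀ j, Triangle.mk (((p : ℤ) ^ j) • 𝟙 X) (i j) (d j) ∈ distTriang T
  it : ∀ j, i (j + 1) ≫ t j = i j
  td : ∀ j, t j ≫ d j = (p : ℤ) • d (j + 1)
  sq : ∀ j, s ≫ q j = q j - q (j + 1) ≫ t j
  cu : ∀ j, c ≫ u ≫ q j = i j
  prod : ∀ (W : T) (x : ∀ j, W ⟶ M j), ∃! y : W ⟶ P, ∀ j, y ≫ q j = x j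
  lim : Triangle.mk u s h ∈ distTriang T

namespace Tw

variable {X Y : T} {c : X ⟶ Y} (D : Tw p c)

theorem ext {W : T} {y y' : W ⟶ D.P} (h : ∀ j, y ≫ D.q j = y' ≫ D.q j) : y = y' :=
  (D.prod W fun j => y' ≫ D.q j).unique h fun _ => rfl

include D in
theorem pComplete : PComplete p Y := by
  have hP : PComplete p D.P := fun W hW f => D.ext fun j => by
    have h1 := cof_tors (D.dist j)
    rw [← pow_add] at h1
    rw [pComplete_of_pow h1 W hW (f ≫ D.q j), zero_comp]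
  exact PComplete.ext₁ _ D.lim hP hP

variable {W : T} (hW : ((p : ℤ) * p) • 𝟙 W = 0)

include hW

theorem i_inj (j : ℕ) (a : W ⟶ X) (h : a ≫ D.i (j + 2) = 0) : a = 0 := by
  obtain ⟨b, hb⟩ : ∃ b : W ⟶ X, a = b ≫ (((p : ℤ) ^ (j + 2)) • 𝟙 X) :=
    Triangle.coyoneda_exact₂ _ (D.dist (j + 2)) a h
  rw [hb, Preadditive.comp_zsmul, Category.comp_id, pow_add, pow_two, mul_smul,
    smul_eq_zero hW, smul_zero]

theorem exists_i (j : ℕ) (x : W ⟶ D.M (j + 2)) :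
    ∃ a : W ⟶ X, x ≫ D.t (j + 1) ≫ D.t j = a ≫ D.i j :=
  Triangle.coyoneda_exact₃ _ (D.dist j) _ (by
    change (x ≫ D.t (j + 1) ≫ D.t j) ≫ D.d j = 0
    rw [Category.assoc, Category.assoc, D.td, Preadditive.comp_zsmul, D.td, smul_smul,
      Preadditive.comp_zsmul, smul_eq_zero hW])

theorem s_surj (y : W ⟶ D.P) : ∃ x : W ⟶ D.P, y = x ≫ D.s := by
  choose a ha using fun j => D.exists_i hW j (y ≫ D.q (j + 2))
  let b : ℕ → (W ⟶ X) := fun j => Nat.rec 0 (fun j z => z - a j) j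
  have hb : ∀ j, b (j + 1) = b j - a j := fun _ => rfl
  obtain ⟨x, hx, -⟩ := D.prod W fun j => y ≫ D.q j + y ≫ D.q (j + 1) ≫ D.t j + b j ≫ D.i j
  refine ⟨x, D.ext fun j => ?_⟩
  have h1 := ha j
  rw [Category.assoc] at h1
  rw [Category.assoc, D.sq, Preadditive.comp_sub, ← Category.assoc, hx, hx, hb]
  simp only [Preadditive.add_comp, Preadditive.sub_comp, Category.assoc, D.it, h1]
  abel

theorem u_inj (y : W ⟶ Y) (h : y ≫ D.u = 0) : y = 0 := by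
  obtain ⟨g, hg⟩ : ∃ g : W⟦(1 : ℤ)⟧ ⟶ D.P, y⟦(1 : ℤ)⟧' = g ≫ D.h :=
    Triangle.coyoneda_exact₁ _ D.lim (y⟦(1 : ℤ)⟧') (by
      change y⟦(1 : ℤ)⟧' ≫ D.u⟦(1 : ℤ)⟧' = 0
      rw [← Functor.map_comp, h, Functor.map_zero])
  obtain ⟨x, rfl⟩ := D.s_surj (shift_tors hW 1) g
  have h1 : D.s ≫ D.h = 0 := comp_distTriang_mor_zero₂₃ _ D.lim
  apply (shiftFunctor T (1 : ℤ)).map_injective
  rw [hg, Category.assoc, h1, comp_zero, Functor.map_zero]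

include D in
theorem c_inj (a : W ⟶ X) (h : a ≫ c = 0) : a = 0 :=
  D.i_inj hW 0 a (by rw [← D.cu, ← Category.assoc, h, zero_comp])

include D in
theorem c_surj (y : W ⟶ Y) : ∃ a : W ⟶ X, y = a ≫ c := by
  have h0 : D.u ≫ D.s = 0 := comp_distTriang_mor_zero₁₂ _ D.lim
  have h1 : ∀ j, y ≫ D.u ≫ D.q j = (y ≫ D.u ≫ D.q (j + 1)) ≫ D.t j := fun j => by
    have h2 : D.u ≫ D.s ≫ D.q j = 0 := by rw [← Category.assoc, h0, zero_comp]
    rw [D.sq, Preadditive.comp_sub, sub_eq_zero] at h2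
    rw [h2, Category.assoc, Category.assoc]
  have h3 : ∀ j, ∃ a : W ⟶ X, y ≫ D.u ≫ D.q j = a ≫ D.i j := fun j => by
    obtain ⟨a, ha⟩ := D.exists_i hW j (y ≫ D.u ≫ D.q (j + 2))
    exact ⟨a, by rw [h1, h1, Category.assoc _ (D.t (j + 1)), ha]⟩
  choose a ha using h3
  have h4 : ∀ j, a (j + 1) ≫ D.i j = a j ≫ D.i j := fun j => by
    rw [← ha j, h1, ha, Category.assoc, D.it]
  have h5 : ∀ j, a (j + 2) = a 2 := fun j => by
    induction j with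
    | zero => rfl
    | succ j ih =>
      rw [← ih, ← sub_eq_zero]
      exact D.i_inj hW j _ (by rw [Preadditive.sub_comp, h4, sub_self])
  refine ⟨a 2, ?_⟩
  rw [← sub_eq_zero]
  refine D.u_inj hW _ (D.ext fun j => ?_)
  rw [zero_comp, Category.assoc, Preadditive.sub_comp, Category.assoc, D.cu, sub_eq_zero, h1, h1,
    ha, h5, Category.assoc, Category.assoc, ← Category.assoc (D.i _), D.it, D.it]

omit hW in
include D in
theorem isIso_cof {Z : T} {g : Y ⟶ Z} {w : Z ⟶ X⟦(1 : ℤ)⟧}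
    (h : Triangle.mk c g w ∈ distTriang T) : IsIso ((p : ℤ) • 𝟙 Z) := by
  refine isIso_of_tors fun W hW f => ?_
  have h1 : f ≫ w = 0 := by
    let e : (W⟦(-1 : ℤ)⟧)⟦(1 : ℤ)⟧ ≅ W := (shiftFunctorCompIsoId T (-1 : ℤ) 1 (by simp)).app W
    obtain ⟨a, ha⟩ := (shiftFunctor T (1 : ℤ)).map_surjective (e.hom ≫ f ≫ w)
    have h2 : a ≫ c = 0 := by
      apply (shiftFunctor T (1 : ℤ)).map_injective
      have h3 : w ≫ c⟦(1 : ℤ)⟧' = 0 := comp_distTriang_mor_zero₃₁ _ h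
      rw [Functor.map_comp, ha, Functor.map_zero, Category.assoc, Category.assoc, h3,
        comp_zero, comp_zero]
    rw [← cancel_epi e.hom, ← ha, D.c_inj (shift_tors hW _) a h2, Functor.map_zero, comp_zero]
  obtain ⟨y, hy⟩ : ∃ y : W ⟶ Y, f = y ≫ g := Triangle.coyoneda_exact₃ _ h f h1
  obtain ⟨a, rfl⟩ := D.c_surj hW y
  have h4 : c ≫ g = 0 := comp_distTriang_mor_zero₁₂ _ h
  rw [hy, Category.assoc, h4, comp_zero]

end Tw

/-- the homotopy limit exists -/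
theorem exists_tw [HasProducts.{0} T] (p : ℕ) (X : T) :
    ∃ (Y : T) (c : X ⟶ Y), Nonempty (Tw p c) := by
  choose M i d hM using fun j : ℕ => distinguished_cocone_triangle (((p : ℤ) ^ j) • 𝟙 X)
  have ht : ∀ j, ∃ t : M (j + 1) ⟶ M j, i (j + 1) ≫ t = i j ∧ t ≫ d j = (p : ℤ) • d (j + 1) := by
    intro j
    obtain ⟨t, h1, h2⟩ := complete_distinguished_triangle_morphism _ _ (hM (j + 1)) (hM j)
      ((p : ℤ) • 𝟙 X) (𝟙 X) (by
        change (((p : ℤ) ^ (j + 1)) • 𝟙 X) ≫ 𝟙 X = ((p : ℤ) • 𝟙 X) ≫ (((p : ℤ) ^ j) • 𝟙 X)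
        rw [Category.comp_id, Preadditive.zsmul_comp, Category.id_comp, smul_smul, pow_succ'])
    have h1' : i (j + 1) ≫ t = 𝟙 X ≫ i j := h1
    have h2' : d (j + 1) ≫ ((p : ℤ) • 𝟙 X)⟦(1 : ℤ)⟧' = t ≫ d j := h2
    refine ⟨t, h1'.trans (Category.id_comp _), h2'.symm.trans ?_⟩
    rw [Functor.map_zsmul, CategoryTheory.Functor.map_id, Preadditive.comp_zsmul,
      Category.comp_id]
  choose t h1 h2 using ht
  let s : ∏ᶜ M ⟶ ∏ᶜ M := Pi.lift fun j => Pi.π M j - Pi.π M (j + 1) ≫ t j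
  obtain ⟨Y, u, h, hY⟩ := distinguished_cocone_triangle₁ s
  obtain ⟨c, hc⟩ : ∃ c : X ⟶ Y, Pi.lift i = c ≫ u :=
    Triangle.coyoneda_exact₂ _ hY (Pi.lift i) (by
      change Pi.lift i ≫ s = 0
      apply Limits.Pi.hom_ext
      intro j
      simp [s, h1])
  refine ⟨Y, c, ⟨⟨M, i, d, t, ∏ᶜ M, Pi.π M, s, u, h, hM, h1, h2, fun j => by simp [s],
    fun j => by rw [← Category.assoc, ← hc]; simp, fun W x => ?_, hY⟩⟩⟩
  exact ⟨Pi.lift x, fun j => by simp, fun y hy => Limits.Pi.hom_ext _ _ fun j => by simp [hy]⟩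

end Vale.Agent.P251HL
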