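import Vale.Agent.P251HL.St
import Vale.Agent.P251HL.HL
import Vale.Agent.P251EJ73.Fin
import Vale.Agent.P251EJ73.Plug

/-!
# The failure of the weak chromatic splitting conjecture, with `S_p = holim S / p ^ j`
-/

open CategoryTheory MonoidalCategory Limits Pretriangulated

namespace Vale.Agent.P251HL

open Vale.Agent.P251.St (SHCat Susp)
open Vale.Agent.P251.St.SHCat Vale.Agent.P251CY Vale.Agent.P221

variable {T : SHCat} {S : Susp T} {p n : ℕ}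

theorem isCompl_iff {X Y : T.C} (c : X ⟶ Y) : H.IsCompl p c ↔ Nonempty (Tw p c) := by
  constructor
  · rintro ⟨M, i, d, t, P, q, s, u, h1, h2, h, h3⟩
    exact ⟨⟨M, i, d, t, P, q, s, u, h, fun j => (h1 j).1, fun j => (h1 j).2.1,
      fun j => (h1 j).2.2.1, fun j => (h1 j).2.2.2.1, fun j => (h1 j).2.2.2.2, h2, h3⟩⟩
  · rintro ⟨D⟩
    exact ⟨D.M, D.i, D.d, D.t, D.P, D.q, D.s, D.u,
      fun j => ⟨D.dist j, D.it j, D.td j, D.sq j, D.cu j⟩, D.prod, D.h, D.lim⟩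

theorem exists_isCompl (p : ℕ) (X : T.C) : ∃ (Y : T.C) (c : X ⟶ Y), H.IsCompl p c := by
  obtain ⟨Y, c, h⟩ := exists_tw p X
  exact ⟨Y, c, (isCompl_iff c).2 h⟩

/-- **Bousfield**: the homotopy limit of the `X / p ^ j` is the localization at the Moore spectrum -/
theorem isLoc_of_isCompl {M : T.C} {a : 𝟙_ T.C ⟶ M} {b : M ⟶ (𝟙_ T.C)⟦(1 : ℤ)⟧}
    (hM : Triangle.mk ((p : ℤ) • 𝟙 (𝟙_ T.C)) a b ∈ distTriang T.C) {X Y : T.C} {c : X ⟶ Y}
    (h : H.IsCompl p c) : IsLoc M c := by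
  obtain ⟨D⟩ := (isCompl_iff c).1 h
  obtain ⟨Z, g, w, hZ⟩ := distinguished_cocone_triangle c
  have h1 := (H395.isIso_mod_iff hM hZ).2 (D.isIso_cof hZ)
  refine ⟨?_, fun W hW f => D.pComplete W ((H395.isIso_p_iff hM W).2 ?_) f⟩
  · change IsIso (𝟙 M ⊗ₘ c)
    rw [id_tensorHom, ← isIso_comp_right_iff _ (β_ M Y).hom,
      BraidedCategory.braiding_naturality_right]
    infer_instance
  · exact ((IsZero.iff_id_eq_zero _).2 hW).of_iso (β_ W M)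

theorem isJW_iff {R : RingSp T} (o : Oriented S R) (φ : GHom S p R) :
    H.IsJW p n o φ ↔ IsJW p n o φ :=
  ⟨fun h => ⟨h.1, h.2, h.3, h.4, h.5⟩, fun h => ⟨h.1, h.2, h.3, h.4, h.5⟩⟩

theorem isMorava_iff (hn : n ≠ 0) (R : RingSp T) : H.IsMorava S R p n ↔ IsMorava S R p n := by
  rw [IsMorava, if_neg hn]
  exact and_congr ⟨fun h => ⟨h.1, h.2, h.3, h.4⟩, fun h => ⟨h.1, h.2, h.3, h.4⟩⟩ Iff.rfl

theorem exists_morava (S : Susp T) (p n : ℕ) (hp : p.Prime) (h2 : p ≠ 2) (hn : 1 ≤ n) :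
    ∃ K : RingSp T, H.IsMorava S K p n := by
  have : Fact p.Prime := ⟨hp⟩
  have := CategoryTheory.locallySmall_self.{0} T.C
  obtain ⟨K, hK⟩ := P251.St.exists_morava p hp.ne_zero T S
    (fun n => P251.X.exists_isMorava S.toSpaceFunctor h2 n)
  exact ⟨RingSp.ofOld (K n), (isMorava_iff (by omega) _).2 ((P251CY.isMorava_iff p n).2 (hK n))⟩

theorem exists_jw (S : Susp T) (p n : ℕ) (hp : p.Prime) (hn : 1 ≤ n) :
    ∃ (E : RingSp T) (o : Oriented S E) (φ : GHom S p E), H.IsJW p n o φ := by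
  obtain ⟨E, o, φ, h⟩ := P251EJ73.exists_jw (fun p _ n => P251EJ73.goal p n) T S p n hp hn
  exact ⟨E, o, φ, (isJW_iff o φ).2 h⟩

theorem exists_diag (T : SHCat) (p : ℕ) (E K : T.C) :
    ∃ (Sp X Z Y : T.C) (c : Hom T.one Sp) (l : Hom Sp X) (z : Hom Sp Z) (y : Hom Z Y)
      (i : Hom X Y), H.IsCompl p c ∧ H.IsLoc E l ∧ H.IsLoc K z ∧ H.IsLoc E y ∧
        comp l i = comp z y := by
  obtain ⟨Sp, c, hc⟩ := exists_isCompl p T.one
  obtain ⟨X, l, hl⟩ := P251.St.exists_isLoc T E Sp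
  obtain ⟨Z, z, hz⟩ := P251.St.exists_isLoc T K Sp
  obtain ⟨Y, y, hy⟩ := P251.St.exists_isLoc T E Z
  obtain ⟨i, hi⟩ := (((P251.St.isLoc_iff E y).1 hy).2.precomp_bijective l
    ((P251.St.isLoc_iff E l).1 hl).1).2 (comp z y)
  exact ⟨Sp, X, Z, Y, c, l, z, y, i, hc, hl, hz, hy, hi⟩

theorem noRetr (S : Susp T) (K E : RingSp T) (o : Oriented S E) (φ : GHom S 5 E)
    (hK : H.IsMorava S K 5 5) (hE : H.IsJW 5 4 o φ) : H.NoRetr 5 E.obj K.obj := by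
  intro Sp X Z Y c l z y i hc
  obtain ⟨M, a, b, hM⟩ := distinguished_cocone_triangle (((5 : ℕ) : ℤ) • 𝟙 (𝟙_ T.C))
  exact (main T S).2.2.2 K E o φ ((isMorava_iff (by omega) K).1 hK) ((isJW_iff o φ).1 hE)
    M a b Sp X Z Y c l z y i hM (isLoc_of_isCompl hM hc)

end Vale.Agent.P251HL
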